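import Vale.Agent.P216.H971Z.Frame

/-!
# P216-B7, Z10: lifts of paths

`Ah h x y`: the difference of the heights of two close points.  Lifts of close paths, of short
paths, of concatenations and of conjugations; lifts along homotopies (`Lf.sheet`).
-/

set_option linter.all false

open Set BoundedContinuousFunction

namespace Vale.Agent.P216.H923Z

open Vale.Agent.P216.PS Vale.Agent.P216.MV337 Vale.Agent.P216.H923E
open Vale.Agent.P216.C337 (c2 c2_one c2_two c2_three)
open Vale.Agent.P216.B7 Vale.Agent.P216.H971Z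

variable {M : Type} [MetricSpace M] {h : C(M, Circle)} {x y a b z : M}
  {m m' t T r r' s s' : ℝ} {p q w w' : ℝ → M}

theorem ex_add (a b : ℝ) : ex (a + b) = ex a * ex b := by
  rw [ex, ex, ex, mul_add, Circle.exp_add]

theorem ex_eq {a b : ℝ} (h : ex a = ex b) : ∃ n : ℤ, a = b + n := by
  obtain ⟨m, hm⟩ := Circle.exp_eq_exp.1 h
  refine ⟨m, ?_⟩
  have hp : (2 * Real.pi) ≠ 0 := by positivity
  have : 2 * Real.pi * a = 2 * Real.pi * (b + m) := by rw [hm]; ring
  exact mul_left_cancel₀ hp this

theorem ex_arg (z : Circle) : ex (Complex.arg z / (2 * Real.pi)) = z := by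
  have hp : (2 * Real.pi) ≠ 0 := by positivity
  rw [ex, mul_div_cancel₀ _ hp]
  exact Circle.exp_arg z

/-- two close heights of the same point are equal -/
theorem ht_eq {a b : ℝ} (h : ex a = ex b) (hd : |a - b| < 1) : a = b := by
  obtain ⟨n, hn⟩ := ex_eq h
  have h1 : |(n : ℝ)| < 1 := by
    rw [hn] at hd
    simpa using hd
  have h2 : n = 0 := by
    have : |n| < 1 := by exact_mod_cast h1
    exact Int.abs_lt_one_iff.1 this
  rw [hn, h2]
  simp

variable (h) in
/-- the difference of the heights of two close points -/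
noncomputable def Ah (x y : M) : ℝ := Complex.arg ((h y / h x : Circle) : ℂ) / (2 * Real.pi)

theorem ex_add_Ah {r : ℝ} (hx : h x = ex r) (y : M) : ex (r + Ah h x y) = h y := by
  rw [ex_add, Ah, ex_arg, ← hx, mul_div_cancel]

theorem Ah_self (x : M) : Ah h x x = 0 := by
  rw [Ah, div_self', Circle.coe_one, Complex.arg_one, zero_div]

theorem re_pos (hd : dist (h x) (h y) < 1) : 0 < ((h y / h x : Circle) : ℂ).re := by
  have e1 : ‖((h y / h x : Circle) : ℂ) - 1‖ < 1 := by
    have e2 : ((h y / h x : Circle) : ℂ) - 1 = ((h y : ℂ) - (h x : ℂ)) / (h x : ℂ) := by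
      rw [Circle.coe_div, sub_div, div_self (Circle.coe_ne_zero _)]
    rw [e2, norm_div, Circle.norm_coe, div_one, ← dist_eq_norm, dist_comm]
    exact hd
  have e3 : |(((h y / h x : Circle) : ℂ) - 1).re| < 1 := (Complex.abs_re_le_norm _).trans_lt e1
  rw [Complex.sub_re, Complex.one_re, abs_lt] at e3
  linarith

theorem abs_Ah_lt (hd : dist (h x) (h y) < 1) : |Ah h x y| < 1 / 4 := by
  have h1 := Complex.abs_arg_lt_pi_div_two_iff.2 (Or.inl (re_pos hd))
  have hp : 0 < 2 * Real.pi := by positivity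
  rw [Ah, abs_div, abs_of_pos hp, div_lt_iff₀ hp]
  linarith [Real.pi_pos]

theorem continuous_Ah {Z : Type*} [TopologicalSpace Z] {f g : Z → M} (hf : Continuous f)
    (hg : Continuous g) (hd : ∀ z, dist (h (f z)) (h (g z)) < 1) :
    Continuous fun z => Ah h (f z) (g z) := by
  unfold Ah
  refine Continuous.div_const ?_ _
  rw [continuous_iff_continuousAt]
  intro z
  have hc : Continuous fun z => ((h (g z) / h (f z) : Circle) : ℂ) :=
    continuous_subtype_val.comp ((h.continuous.comp hg).div' (h.continuous.comp hf))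
  exact ContinuousAt.comp' (f := fun z => ((h (g z) / h (f z) : Circle) : ℂ))
    (Complex.continuousAt_arg (Or.inl (re_pos (hd z)))) hc.continuousAt

/-- **Close paths.** -/
theorem Lf.close (hw : Continuous w) (hw' : Continuous w')
    (hd : ∀ u, dist (h (w u)) (h (w' u)) < 1) (h0 : ∀ u ≤ 0, w' u = w u)
    (h1 : ∀ u, m ≤ u → w' u = w u) (H : Lf h m r s w) : Lf h m r s w' := by
  obtain ⟨θ, c, e, e0, e1⟩ := H
  refine ⟨fun u => θ u + Ah h (w u) (w' u), c.add (continuous_Ah hw hw' hd),
    fun u => (ex_add_Ah (e u) _).symm, fun u hu => ?_, fun u hu => ?_⟩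
  · show θ u + Ah h (w u) (w' u) = r
    rw [h0 u hu, Ah_self, add_zero, e0 u hu]
  · show θ u + Ah h (w u) (w' u) = s
    rw [h1 u hu, Ah_self, add_zero, e1 u hu]

/-- **Short paths.** -/
theorem Lf.short (hp : Pt m a z p) (hd : ∀ u, dist (h z) (h (p u)) < 1) (hz : h z = ex s)
    (ha : h a = ex r) (hrs : |r - s| < 1 / 2) : Lf h m r s p := by
  refine ⟨fun u => s + Ah h z (p u), continuous_const.add
    (continuous_Ah continuous_const hp.1.continuous hd), fun u => (ex_add_Ah hz _).symm,
    fun u hu => ?_, fun u hu => ?_⟩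
  · show s + Ah h z (p u) = r
    rw [hp.2.1 u hu]
    have h0 := hd 0
    rw [hp.zero] at h0
    refine ht_eq ((ex_add_Ah hz a).trans ha) ?_
    have h1 := abs_Ah_lt h0
    rw [abs_lt] at h1 hrs ⊢
    constructor <;> linarith
  · show s + Ah h z (p u) = s
    rw [hp.2.2 u hu, Ah_self, add_zero]

theorem continuous_catf {X : Type*} [TopologicalSpace X] {f g : ℝ → X} (hf : Continuous f)
    (hg : Continuous g) (e : f m = g 0) : Continuous (catf m f g) := by
  unfold catf
  refine Continuous.if_le hf (hg.comp (continuous_id.sub continuous_const)) continuous_id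
    continuous_const fun u hu => ?_
  have hu' : u = m := hu
  rw [hu']
  show f m = g (m - m)
  rw [sub_self, e]

/-- **Concatenation.** -/
theorem Lf.cat (H : Lf h m r s p) (H' : Lf h m' s s' q) (hm : 0 ≤ m) (hm' : 0 ≤ m') :
    Lf h (m + m') r s' (catf m p q) := by
  obtain ⟨θ, c, e, e0, e1⟩ := H
  obtain ⟨θ', c', e', e0', e1'⟩ := H'
  have h1 : θ m = θ' 0 := by rw [e1 m le_rfl, e0' 0 le_rfl]
  refine ⟨catf m θ θ', continuous_catf c c' h1, fun u => ?_, fun u hu => ?_, fun u hu => ?_⟩
  · unfold catf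
    split_ifs
    · exact e u
    · exact e' _
  · rw [catf_left (hu.trans hm), e0 u hu]
  · rw [catf_right h1 (by linarith), e1' _ (by linarith)]

/-- **Conjugation.** -/
theorem Lf.conj (Hp : Lf h m r r' p) (Hw : Lf h t r s w) (hm : 0 ≤ m) (ht : 0 ≤ t)
    (hb : h b = ex s) : Lf h (t + (m + m)) r' s (c2 m t p (fun _ => b) w) := by
  obtain ⟨η, c, e, e0, e1⟩ := Hp
  obtain ⟨θ, c', e', e0', e1'⟩ := Hw
  refine ⟨fun u => if u ≤ m then η (m - u) else if u ≤ m + t then θ (u - m) else s, ?_,
    fun u => ?_, fun u hu => ?_, fun u hu => ?_⟩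
  · refine Continuous.if_le (c.comp (continuous_const.sub continuous_id)) ?_ continuous_id
      continuous_const fun u hu => ?_
    · refine Continuous.if_le (c'.comp (continuous_id.sub continuous_const)) continuous_const
        continuous_id continuous_const fun u hu => ?_
      have hu' : u = m + t := hu
      rw [hu']
      show θ (m + t - m) = s
      rw [add_sub_cancel_left, e1' t le_rfl]
    · have hu' : u = m := hu
      rw [hu']
      show η (m - m) = if m ≤ m + t then θ (m - m) else s
      rw [if_pos (by linarith), sub_self, e0 0 le_rfl, e0' 0 le_rfl]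
  · show h (if u ≤ m then p (m - u) else if u ≤ m + t then w (u - m) else b) =
      ex (if u ≤ m then η (m - u) else if u ≤ m + t then θ (u - m) else s)
    split_ifs
    · exact e _
    · exact e' _
    · exact hb
  · show (if u ≤ m then η (m - u) else if u ≤ m + t then θ (u - m) else s) = r'
    rw [if_pos (hu.trans hm), e1 _ (by linarith)]
  · show (if u ≤ m then η (m - u) else if u ≤ m + t then θ (u - m) else s) = s
    split_ifs with h1 h2
    · have h3 : m - u ≤ 0 := by linarith
      have h4 : t ≤ 0 := by linarith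
      have h5 : t = 0 := le_antisymm h4 ht
      rw [e0 _ h3, ← e0' 0 le_rfl, e1' 0 (by rw [h5])]
    · exact e1' _ (by linarith)
    · rfl

/-- **Heights do not change along a homotopy with fixed ends.** -/
theorem Lf.sheet [CompactSpace M] {F : ℝ → ℝ →ᵇ M} (hF : ∀ σ ∈ Icc (0:ℝ) 1, F σ ∈ P a b T)
    (hm : ∀ ε > 0, ∃ δ > 0, ∀ σ ∈ Icc (0:ℝ) 1, ∀ σ' ∈ Icc (0:ℝ) 1, |σ - σ'| < δ →
      dist (F σ) (F σ') < ε) (H : Lf h T r s (F 0)) {σ : ℝ} (hσ : σ ∈ Icc (0:ℝ) 1) :
    Lf h T r s (F σ) := by
  obtain ⟨ε, hε, hd⟩ := Metric.uniformContinuous_iff.1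
    (CompactSpace.uniformContinuous_of_continuous h.continuous) 1 one_pos
  obtain ⟨δ, hδ, hm⟩ := hm ε hε
  obtain ⟨N, hN⟩ := exists_nat_gt (1 / δ)
  have hN0 : (0:ℝ) < N := (by positivity : 0 < 1 / δ).trans hN
  have hN1 : 1 / (N:ℝ) < δ := by
    rw [div_lt_iff₀ hN0]
    rw [div_lt_iff₀ hδ] at hN
    linarith
  have hmem : ∀ j : ℕ, j ≤ N → σ * (j / N) ∈ Icc (0:ℝ) 1 := fun j hj => by
    have h1 : (j : ℝ) / N ≤ 1 := (div_le_one hN0).2 (by exact_mod_cast hj)
    have h0 : 0 ≤ (j : ℝ) / N := by positivity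
    exact ⟨mul_nonneg hσ.1 h0, mul_le_one₀ hσ.2 h0 h1⟩
  have key : ∀ j : ℕ, j ≤ N → Lf h T r s (F (σ * (j / N))) := by
    intro j
    induction j with
    | zero =>
      intro _
      rw [Nat.cast_zero, zero_div, mul_zero]
      exact H
    | succ j ih =>
      intro hj
      have h1 := hF _ (hmem j (by omega))
      have h2 := hF _ (hmem (j + 1) hj)
      have h3 : dist (F (σ * (j / N))) (F (σ * ((j + 1 : ℕ) / N))) < ε := by
        refine hm _ (hmem j (by omega)) _ (hmem (j + 1) hj) ?_
        rw [show σ * (j / N) - σ * ((j + 1 : ℕ) / N) = -(σ * (1 / N)) by push_cast; ring, abs_neg,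
          abs_of_nonneg (mul_nonneg hσ.1 (by positivity))]
        exact (mul_le_of_le_one_left (by positivity) hσ.2).trans_lt hN1
      refine Lf.close (F _).continuous (F _).continuous (fun u => hd
        ((BoundedContinuousFunction.dist_coe_le_dist u).trans_lt h3)) (fun u hu => ?_)
        (fun u hu => ?_) (ih (by omega))
      · rw [eq_left h1 hu, eq_left h2 hu]
      · rw [eq_right h1 hu, eq_right h2 hu]
  have := key N le_rfl
  rwa [div_self hN0.ne', mul_one] at this

end Vale.Agent.P216.H923Z
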