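import Vale.Agent.P216.H971Z.Frame

/-!
# P216-B7, Z10: `φ x ~ φ y` with arbitrary tracks

The tracks `c i` from `x i` to `x₀` and `c' i` from `y i` to `x₀` are given, with a homotopy from
`seg (y i) (x i) * c i` to `c' i`.
-/

set_option linter.all false

open Set BoundedContinuousFunction

namespace Vale.Agent.P216.H923Z

open Vale.Agent.P216.PS Vale.Agent.P216.MV337 Vale.Agent.P216.C337 Vale.Agent.P216.H923E

variable {M : Type} [MetricSpace M] [CompactSpace M] {ρ R ℓ₀ ℓ r0 t : ℝ} {x₀ : M} {g : M → M}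

/-- The numbers of the construction. -/
structure Nb (M : Type) [MetricSpace M] (ρ R ℓ₀ ℓ r0 : ℝ) : Prop where
  hU : LS.UniqSeg M ρ
  hR : 0 < R
  hRρ : R < ρ
  hr0 : 0 < r0
  hrR : 2 * r0 ≤ R
  hℓ₀ : 0 ≤ ℓ₀
  hℓ1 : R + ℓ₀ ≤ ℓ

namespace Nb

variable (N : Nb M ρ R ℓ₀ ℓ r0)
include N

theorem ℓ_nonneg : 0 ≤ ℓ := by linarith [N.hR, N.hℓ₀, N.hℓ1]

omit [CompactSpace M] in
theorem sgp {r : ℝ} (hr : r ≤ r0) {a x : M} (h : a ∈ NB x r) : Pt R a x (sg R a x) := by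
  have h1 : dist x a ≤ r := h
  rw [dist_comm] at h1
  exact sg_pt N.hU N.hR (by linarith [N.hrR, N.hRρ, N.hr0]) (by linarith [N.hrR, N.hr0])

theorem pφ_unif {ε : ℝ} (hε : 0 < ε) : ∃ δ > 0, ∀ (x : M) (c : ℝ → M), ∀ a ∈ NB x r0,
    ∀ a' ∈ NB x r0, dist a a' < δ →
    ∀ u, dist (catf R (sg R a x) c u) (catf R (sg R a' x) c u) ≤ ε := by
  obtain ⟨δ, hδ, h⟩ := sg_unif (R := R) N.hU N.hRρ hε
  refine ⟨δ, hδ, fun x c a ha a' ha' hd u => dist_catf_le (fun u => ?_) (fun u => ?_) u⟩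
  · have h1 : dist x a ≤ r0 := ha
    have h2 : dist x a' ≤ r0 := ha'
    rw [dist_comm] at h1 h2
    exact h a a' x x u (by linarith [N.hrR, N.hr0]) (by linarith [N.hrR, N.hr0]) hd.le
      (by rw [dist_self]; exact hδ.le)
  · rw [dist_self]
    exact hε.le

/-- **(G3)** with arbitrary tracks. -/
theorem g3 (hg : ∀ x y, dist (g x) (g y) ≤ dist x y) (ht : 0 ≤ t) {I : Type} {x y : I → M}
    {c c' : I → ℝ → M} (hc : ∀ i, Pt ℓ₀ (x i) x₀ (c i)) (hc' : ∀ i, Pt ℓ₀ (y i) x₀ (c' i))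
    (hj : ∀ i, dist (x i) (y i) ≤ 2 * r0 → ∃ γ : ℝ → ℝ →ᵇ M, Continuous γ ∧
      (γ 0 : ℝ → M) = catf R (sg R (y i) (x i)) (c i) ∧ (γ 1 : ℝ → M) = c' i ∧
      ∀ σ ∈ Icc (0:ℝ) 1, Pt ℓ (y i) x₀ (γ σ)) :
    UH (fun i => XL g (NB (x i) r0 ∩ NB (y i) r0) t)
      (fun _ => XL g {x₀} (t + (R + ℓ + (R + ℓ))))
      (fun i w => cg g (R + ℓ) t (catf R (sg R (w 0) (x i)) (c i)) w)
      fun i w => cg g (R + ℓ) t (catf R (sg R (w 0) (y i)) (c' i)) w := by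
  have hℓ := N.ℓ_nonneg
  have hR := N.hR
  have hm : 0 ≤ R + ℓ := by linarith
  have hr0 := N.hr0
  have hrR := N.hrR
  have hRρ := N.hRρ
  have hℓ₀ := N.hℓ₀
  have hℓ1 : R + ℓ₀ ≤ ℓ := N.hℓ1
  refine UH.of_nonempty (p := fun i : I => dist (x i) (y i) ≤ 2 * r0) (fun i hi => ?_) ?_
  · obtain ⟨w, h1, h2, h3⟩ := hi
    have h2' : dist (x i) (w 0) ≤ r0 := h2
    have h3' : dist (y i) (w 0) ≤ r0 := h3
    rw [dist_comm] at h3'
    linarith [dist_triangle (x i) (w 0) (y i)]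
  have hd1 : ∀ (i : {i : I // dist (x i) (y i) ≤ 2 * r0}) (a : M),
      a ∈ NB (x i.1) r0 ∩ NB (y i.1) r0 → dist a (x i.1) ≤ r0 ∧ dist a (y i.1) ≤ r0 :=
    fun i a ha => by
    have h2 : dist (x i.1) a ≤ r0 := ha.1
    have h3 : dist (y i.1) a ≤ r0 := ha.2
    rw [dist_comm] at h2 h3
    exact ⟨h2, h3⟩
  -- the waiting time
  have HA := uh_conj (m := R + ℓ)
    (D := fun i : {i : I // dist (x i) (y i) ≤ 2 * r0} => NB (x i.1) r0 ∩ NB (y i.1) r0)
    (V := fun _ => {x₀}) hg hm ht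
    (fun i σ a u => catf R (sg R a (x i.1)) (c i.1) (u - σ * R))
    (fun i σ hσ a ha => ⟨x₀, rfl, ?_, ?_, ?_⟩)
    (fun ε hε => ?_)
    (fun i ε hε => ⟨ε / R, by positivity, fun σ hσ σ' hσ' hd a ha u => ?_⟩)
  rotate_left
  · exact ((N.sgp le_rfl ha.1).cat (hc _) hR.le hℓ₀).1.comp fun u v => by
      rw [show u - σ * R - (v - σ * R) = u - v by ring]
  · intro u hu
    have := mul_nonneg hσ.1 hR.le
    exact ((N.sgp le_rfl ha.1).cat (hc _) hR.le hℓ₀).2.1 _ (by linarith)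
  · intro u hu
    have := mul_le_of_le_one_left hR.le hσ.2
    exact ((N.sgp le_rfl ha.1).cat (hc _) hR.le hℓ₀).2.2 _ (by linarith)
  · obtain ⟨δ, hδ, h⟩ := N.pφ_unif hε
    exact ⟨δ, hδ, fun i σ _ a ha a' ha' hd u => h (x i.1) (c i.1) a ha.1 a' ha'.1 hd _⟩
  · refine (((N.sgp le_rfl ha.1).cat (hc _) hR.le hℓ₀).1 _ _).trans ?_
    rw [show u - σ * R - (u - σ' * R) = -((σ - σ') * R) by ring, abs_neg, abs_mul, abs_of_pos hR]
    exact (mul_le_mul_of_nonneg_right hd.le hR.le).trans_eq (div_mul_cancel₀ _ hR.ne')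
  -- along the segment to `y`
  have hz : ∀ (i : {i : I // dist (x i) (y i) ≤ 2 * r0}), ∀ σ ∈ Icc (0:ℝ) 1,
      ∀ a ∈ NB (x i.1) r0 ∩ NB (y i.1) r0, dist a (LS.seg a (y i.1) σ) ≤ r0 ∧
        dist (LS.seg a (y i.1) σ) (x i.1) ≤ 2 * r0 := fun i σ hσ a ha => by
    obtain ⟨h2, h3⟩ := hd1 i a ha
    have h4 : dist a (LS.seg a (y i.1) σ) ≤ r0 := by
      rw [LS.dist_left_seg N.hU (by linarith) hσ]
      exact (mul_le_of_le_one_left dist_nonneg hσ.2).trans h3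
    refine ⟨h4, ?_⟩
    linarith [dist_triangle (LS.seg a (y i.1) σ) a (x i.1), dist_comm a (LS.seg a (y i.1) σ)]
  have hzs : ∀ (i : {i : I // dist (x i) (y i) ≤ 2 * r0}), ∀ σ ∈ Icc (0:ℝ) 1,
      ∀ a ∈ NB (x i.1) r0 ∩ NB (y i.1) r0,
        Pt R a (LS.seg a (y i.1) σ) (sg R a (LS.seg a (y i.1) σ)) ∧
        Pt (R + ℓ₀) (LS.seg a (y i.1) σ) x₀
          (catf R (sg R (LS.seg a (y i.1) σ) (x i.1)) (c i.1)) := fun i σ hσ a ha => by
    obtain ⟨h2, h3⟩ := hz i σ hσ a ha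
    exact ⟨sg_pt N.hU hR (by linarith) (by linarith),
      (sg_pt N.hU hR (by linarith) (by linarith)).cat (hc _) hR.le hℓ₀⟩
  have HB := uh_conj (m := R + ℓ)
    (D := fun i : {i : I // dist (x i) (y i) ≤ 2 * r0} => NB (x i.1) r0 ∩ NB (y i.1) r0)
    (V := fun _ => {x₀}) hg hm ht
    (fun i σ a => catf R (sg R a (LS.seg a (y i.1) σ))
      (catf R (sg R (LS.seg a (y i.1) σ) (x i.1)) (c i.1)))
    (fun i σ hσ a ha => ⟨x₀, rfl, ?_⟩)
    (fun ε hε => ?_)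
    (fun i ε hε => ?_)
  rotate_left
  · exact ((hzs i σ hσ a ha).1.cat (hzs i σ hσ a ha).2 hR.le (by linarith)).le (by linarith)
  · obtain ⟨δ, hδ, h⟩ := sg_unif (R := R) N.hU hRρ hε
    obtain ⟨δ', hδ', h'⟩ := LS.unifCont_seg N.hU hRρ hδ
    refine ⟨min δ δ', lt_min hδ hδ', fun i σ hσ a ha a' ha' hd => ?_⟩
    have e1 : dist a a' ≤ δ := hd.le.trans (min_le_left _ _)
    have e2 : dist a a' ≤ δ' := hd.le.trans (min_le_right _ _)
    have e3 : dist (LS.seg a (y i.1) σ) (LS.seg a' (y i.1) σ) ≤ δ :=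
      h' a a' _ _ σ σ (by linarith [(hd1 i a ha).2]) (by linarith [(hd1 i a' ha').2]) hσ hσ e2
        (by rw [dist_self]; exact hδ'.le) (by rw [sub_self, abs_zero]; exact hδ'.le)
    have e4 := hz i σ hσ a ha
    have e5 := hz i σ hσ a' ha'
    refine dist_catf_le (fun u => h a a' _ _ u (by linarith) (by linarith) e1 e3)
      (dist_catf_le (fun u => h _ _ _ _ u (by linarith) (by linarith) e3
        (by rw [dist_self]; exact hδ.le)) fun u => by rw [dist_self]; exact hε.le)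
  · obtain ⟨δ, hδ, h⟩ := sg_unif (R := R) N.hU hRρ hε
    refine ⟨δ / r0, by positivity, fun σ hσ σ' hσ' hd a ha => ?_⟩
    have e3 : dist (LS.seg a (y i.1) σ) (LS.seg a (y i.1) σ') ≤ δ := by
      rw [LS.dist_seg_seg N.hU (by linarith [(hd1 i a ha).2]) hσ hσ']
      refine (mul_le_mul hd.le (hd1 i a ha).2 dist_nonneg (by positivity)).trans_eq ?_
      exact div_mul_cancel₀ _ hr0.ne'
    have e4 := hz i σ hσ a ha
    have e5 := hz i σ' hσ' a ha
    refine dist_catf_le (fun u => h a a _ _ u (by linarith) (by linarith)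
      (by rw [dist_self]; exact hδ.le) e3)
      (dist_catf_le (fun u => h _ _ _ _ u (by linarith) (by linarith) e3
        (by rw [dist_self]; exact hδ.le)) fun u => by rw [dist_self]; exact hε.le)
  -- behind `y`
  choose γ hγ1 hγ2 hγ3 hγ4 using fun i : {i : I // dist (x i) (y i) ≤ 2 * r0} => hj i.1 i.2
  have HC := uh_conj (m := R + ℓ)
    (D := fun i : {i : I // dist (x i) (y i) ≤ 2 * r0} => NB (x i.1) r0 ∩ NB (y i.1) r0)
    (V := fun _ => {x₀}) hg hm ht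
    (fun i σ a => catf R (sg R a (y i.1)) (γ i σ))
    (fun i σ hσ a ha => ⟨x₀, rfl, (N.sgp le_rfl ha.2).cat (hγ4 i σ hσ) hR.le hℓ⟩)
    (fun ε hε => ?_)
    (fun i ε hε => ?_)
  rotate_left
  · obtain ⟨δ, hδ, h⟩ := sg_unif (R := R) N.hU hRρ hε
    refine ⟨δ, hδ, fun i σ hσ a ha a' ha' hd => dist_catf_le (fun u => h a a' _ _ u
      (by linarith [(hd1 i a ha).2]) (by linarith [(hd1 i a' ha').2]) hd.le
      (by rw [dist_self]; exact hδ.le)) fun u => by rw [dist_self]; exact hε.le⟩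
  · have hu := isCompact_Icc.uniformContinuousOn_of_continuous (s := Icc (0:ℝ) 1)
      (hγ1 i).continuousOn
    rw [Metric.uniformContinuousOn_iff] at hu
    obtain ⟨δ, hδ, h⟩ := hu ε hε
    refine ⟨δ, hδ, fun σ hσ σ' hσ' hd a ha => dist_catf_le
      (fun u => by rw [dist_self]; exact hε.le) fun u => ?_⟩
    exact (BoundedContinuousFunction.dist_coe_le_dist _).trans (h σ hσ σ' hσ' hd).le
  refine ((HA.congr (f' := fun i w => cg g (R + ℓ) t (catf R (sg R (w 0) (x i.1)) (c i.1)) w)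
    (g' := fun i w => cg g (R + ℓ) t (catf R (sg R (w 0) (w 0))
      (catf R (sg R (w 0) (x i.1)) (c i.1))) w) (fun i w hw => ?_) fun i w hw => ?_).trans
    ((HB.congr (f' := fun i w => cg g (R + ℓ) t (catf R (sg R (w 0) (w 0))
      (catf R (sg R (w 0) (x i.1)) (c i.1))) w)
    (g' := fun i w => cg g (R + ℓ) t (catf R (sg R (w 0) (y i.1))
      (catf R (sg R (y i.1) (x i.1)) (c i.1))) w) (fun i w hw => ?_) fun i w hw => ?_).trans
    (HC.congr (f' := fun i w => cg g (R + ℓ) t (catf R (sg R (w 0) (y i.1))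
      (catf R (sg R (y i.1) (x i.1)) (c i.1))) w)
      (g' := fun i w => cg g (R + ℓ) t (catf R (sg R (w 0) (y i.1)) (c' i.1)) w)
      (fun i w hw => ?_) fun i w hw => ?_)))
  · show cg g _ t (fun u => catf R (sg R (w 0) (x i.1)) (c i.1) (u - 0 * R)) w = _
    simp only [zero_mul, sub_zero]
  · show cg g _ t (fun u => catf R (sg R (w 0) (x i.1)) (c i.1) (u - 1 * R)) w = _
    congr 1
    funext u
    rw [one_mul]
    have hP := (N.sgp le_rfl hw.2.1).cat (hc i.1) hR.le hℓ₀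
    rcases le_total u R with h | h
    · rw [catf_left h, hP.2.1 _ (by linarith), sg_self]
    · have e : sg R (w 0) (w 0) R = catf R (sg R (w 0) (x i.1)) (c i.1) 0 := by
        rw [sg_self, hP.2.1 _ le_rfl]
      rw [catf_right e h]
  · show cg g _ t (catf R (sg R (w 0) (LS.seg (w 0) (y i.1) 0)) (catf R (sg R
      (LS.seg (w 0) (y i.1) 0) (x i.1)) (c i.1))) w = _
    rw [LS.seg_zero]
  · show cg g _ t (catf R (sg R (w 0) (LS.seg (w 0) (y i.1) 1)) (catf R (sg R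
      (LS.seg (w 0) (y i.1) 1) (x i.1)) (c i.1))) w = _
    rw [LS.seg_one]
  · show cg g _ t (catf R (sg R (w 0) (y i.1)) (γ i 0)) w = _
    rw [hγ2]
  · show cg g _ t (catf R (sg R (w 0) (y i.1)) (γ i 1)) w = _
    rw [hγ3]

end Nb

end Vale.Agent.P216.H923Z
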