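import Vale.Agent.P216.H923Z.Lift
import Vale.Agent.P216.H923Z.G3
import Vale.Agent.P216.H892.FibU

/-!
# P216-B7, Z10: the compatibility `φ x ~ φ y` over the infinite cyclic covering

`phZ b R ℓ c p t z`: the path `z.1` to `b`, with the front track `c p` and a small segment.
-/

set_option linter.all false

open Set BoundedContinuousFunction

namespace Vale.Agent.P216.H923Z

open Vale.Agent.P216.PS Vale.Agent.P216.MV337 Vale.Agent.P216.H923E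
open Vale.Agent.P216.C337 (c2 XG)
open Vale.Agent.P216.B7 Vale.Agent.P216.H971Z
open Vale.Agent.P216.H892 (FibC nbh CtgC)

variable {M : Type} [MetricSpace M] [CompactSpace M] {ρ R ℓ₀ ℓ r0 t r₁ : ℝ} {h : C(M, Circle)}
  {p₀ p' p q : M × ℝ} {c : M × ℝ → ℝ → M} {A : Set (M × ℝ)}

/-- **The comparison map.** -/
noncomputable def phZ (b : M) (R ℓ : ℝ) (c : M × ℝ → ℝ → M) (p : M × ℝ) (t : ℝ)
    (z : (ℝ →ᵇ M) × ℝ) : ℝ →ᵇ M :=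
  cg (fun _ => b) (R + ℓ) t (catf R (sg R (z.1 0) p.1) (c p)) z.1

/-- The radius at which `h` moves by less than `1`. -/
def Rad (h : C(M, Circle)) (r₁ : ℝ) : Prop := ∀ x y : M, dist x y ≤ r₁ → dist (h x) (h y) < 1

theorem exists_rad (h : C(M, Circle)) {r : ℝ} (hr : 0 < r) : ∃ r₁ > 0, r₁ ≤ r ∧ Rad h r₁ := by
  obtain ⟨δ, hδ, hd⟩ := Metric.uniformContinuous_iff.1
    (CompactSpace.uniformContinuous_of_continuous h.continuous) 1 one_pos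
  exact ⟨min r (δ / 2), lt_min hr (half_pos hδ), min_le_left _ _, fun x y hxy =>
    hd ((hxy.trans (min_le_right _ _)).trans_lt (half_lt_self hδ))⟩

/-- the small segment, with its lift -/
theorem lf_sg (N : Nb M ρ R ℓ₀ ℓ r0) (hr : r₁ ≤ r0) (hh : Rad h r₁) {a x : M} {ra rx : ℝ}
    (hd : dist x a ≤ r₁) (hx : h x = ex rx) (ha : h a = ex ra) (hrr : |ra - rx| < 1 / 2) :
    Pt R a x (sg R a x) ∧ Lf h R ra rx (sg R a x) := by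
  have hp := N.sgp (r := r₁) hr (a := a) (x := x) hd
  have hd' : dist a x ≤ r₁ := by rw [dist_comm]; exact hd
  refine ⟨hp, Lf.short hp (fun u => hh _ _ ?_) hx ha hrr⟩
  show dist x (LS.seg a x (cl1 (u / R))) ≤ r₁
  rw [dist_comm, LS.dist_seg_right N.hU (by linarith [N.hrR, N.hRρ, N.hr0]) (cl1_mem _)]
  refine le_trans ?_ hd'
  exact mul_le_of_le_one_left dist_nonneg (by linarith [(cl1_mem (u / R)).1])

/-- the front track, with its lift -/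
theorem lf_front (N : Nb M ρ R ℓ₀ ℓ r0) (hr : r₁ ≤ r0) (hh : Rad h r₁) (hp : h p.1 = ex p.2)
    (hc : Pt ℓ₀ p.1 p₀.1 (c p)) (hcl : Lf h ℓ₀ p.2 p₀.2 (c p)) {a : M} {ra : ℝ}
    (hd : dist p.1 a ≤ r₁) (ha : h a = ex ra) (hrr : |ra - p.2| < 1 / 2) :
    Pt (R + ℓ₀) a p₀.1 (catf R (sg R a p.1) (c p)) ∧
      Lf h (R + ℓ₀) ra p₀.2 (catf R (sg R a p.1) (c p)) := by
  obtain ⟨h1, h2⟩ := lf_sg N hr hh hd hp ha hrr
  exact ⟨h1.cat hc N.hR.le N.hℓ₀, Lf.cat h2 hcl N.hR.le N.hℓ₀⟩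

theorem mo_mem_PZ {m : ℝ} {f : ℝ → M} (h1 : Pt m p.1 q.1 f) (h2 : Lf h m p.2 q.2 f) :
    mo f ∈ PZ h p q m := by
  refine ⟨h1.mo, ?_⟩
  have e : (mo f : ℝ → M) = f := funext fun u => h1.1.mo_apply u
  rw [e]
  exact h2

/-- `φ` lands in the fibre -/
theorem phZ_mem (N : Nb M ρ R ℓ₀ ℓ r0) (hr : r₁ ≤ r0) (hh : Rad h r₁) (hp : h p.1 = ex p.2)
    (hp' : p' ∈ Xt h) (hc : Pt ℓ₀ p.1 p₀.1 (c p)) (hcl : Lf h ℓ₀ p.2 p₀.2 (c p)) (ht : 0 ≤ t)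
    {z : (ℝ →ᵇ M) × ℝ} (hz : z ∈ XZ h p' t) (hd : dist p.1 (z.1 0) ≤ r₁)
    (hrr : |z.2 - p.2| < 1 / 2) :
    phZ p'.1 R ℓ c p t z ∈ PZ h p₀ p' (t + (R + ℓ + (R + ℓ))) := by
  obtain ⟨hz1, hz2⟩ := hz
  have hz0 : h (z.1 0) = ex z.2 := by
    obtain ⟨θ, -, e, e0, -⟩ := hz2
    rw [e, e0 0 le_rfl]
  have hm : 0 ≤ R + ℓ := by linarith [N.hR, N.ℓ_nonneg]
  obtain ⟨h1, h2⟩ := lf_front N hr hh hp hc hcl hd hz0 hrr
  have h1' : Pt (R + ℓ) (z.1 0) p₀.1 (catf R (sg R (z.1 0) p.1) (c p)) :=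
    h1.le (by linarith [N.hℓ1, N.hR])
  have h2' : Lf h (R + ℓ) z.2 p₀.2 (catf R (sg R (z.1 0) p.1) (c p)) :=
    h2.mono (by linarith [N.hℓ1, N.hR])
  have hg : ∀ x y : M, dist ((fun _ => p'.1 : M → M) x) ((fun _ => p'.1 : M → M) y) ≤ dist x y :=
    fun x y => by rw [dist_self]; exact dist_nonneg
  have hw : z.1 ∈ XG (fun _ => p'.1) t := hz1
  refine ⟨cg_mem_P hg hm ht h1' hw, ?_⟩
  have e : (phZ p'.1 R ℓ c p t z : ℝ → M) =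
      c2 (R + ℓ) t (catf R (sg R (z.1 0) p.1) (c p)) (fun _ => p'.1) z.1 :=
    funext fun u => cg_apply hg ht h1' hw u
  rw [e]
  exact Lf.conj h2' hz2 hm ht hp'

/-- the path from the front track of `p` to the one of `q`, behind `q` -/
theorem exists_gamma (N : Nb M ρ R ℓ₀ ℓ r0) (hr : r₁ ≤ r0) (hh : Rad h r₁) (hp : h p.1 = ex p.2)
    (hq : h q.1 = ex q.2) (hc : Pt ℓ₀ p.1 p₀.1 (c p)) (hcl : Lf h ℓ₀ p.2 p₀.2 (c p))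
    (hc' : Pt ℓ₀ q.1 p₀.1 (c q)) (hcl' : Lf h ℓ₀ q.2 p₀.2 (c q))
    (hj : ∀ v ∈ PZ h q p₀ (R + ℓ₀), ∀ v' ∈ PZ h q p₀ (R + ℓ₀), JoinedIn (PZ h q p₀ ℓ) v v')
    (hd : dist p.1 q.1 ≤ r₁) (hrr : |q.2 - p.2| < 1 / 2) :
    ∃ γ : ℝ → ℝ →ᵇ M, Continuous γ ∧ (γ 0 : ℝ → M) = catf R (sg R q.1 p.1) (c p) ∧
      (γ 1 : ℝ → M) = c q ∧ ∀ σ ∈ Icc (0:ℝ) 1, Pt ℓ q.1 p₀.1 (γ σ) := by
  obtain ⟨h1, h2⟩ := lf_front N hr hh hp hc hcl hd hq hrr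
  have h3 : Pt (R + ℓ₀) q.1 p₀.1 (c q) := hc'.le (by linarith [N.hR])
  have hJ := hj _ (mo_mem_PZ h1 h2) _ (mo_mem_PZ h3 (hcl'.mono (by linarith [N.hR])))
  refine ⟨hJ.somePath.extend, hJ.somePath.continuous_extend, ?_, ?_, fun σ hσ => ?_⟩
  · rw [hJ.somePath.extend_zero]
    funext u
    exact h1.1.mo_apply u
  · rw [hJ.somePath.extend_one]
    funext u
    exact h3.1.mo_apply u
  · exact Pt.of_P (hJ.somePath_mem (projIcc 0 1 zero_le_one σ)).1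

/-- **The compatibility `φ x ~ φ y`.** -/
theorem fibC (N : Nb M ρ R ℓ₀ ℓ r0) (hp' : p' ∈ Xt h) (hA : A ⊆ Xt h)
    (hc : ∀ p ∈ A, Pt ℓ₀ p.1 p₀.1 (c p) ∧ Lf h ℓ₀ p.2 p₀.2 (c p))
    (hj : ∀ q ∈ A, ∀ v ∈ PZ h q p₀ (R + ℓ₀), ∀ v' ∈ PZ h q p₀ (R + ℓ₀),
      JoinedIn (PZ h q p₀ ℓ) v v') (ht : 0 ≤ t) :
    FibC stz A (XZ h p' t) (PZ h p₀ p' (t + (R + ℓ + (R + ℓ))))
      fun p => phZ p'.1 R ℓ c p t := by
  obtain ⟨r₁, hr₁, hr, hh⟩ := exists_rad h N.hr0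
  have hr0 := N.hr0
  have hg : ∀ x y : M, dist ((fun _ => p'.1 : M → M) x) ((fun _ => p'.1 : M → M) y) ≤ dist x y :=
    fun x y => by rw [dist_self]; exact dist_nonneg
  let I : Type := {i : (M × ℝ) × (M × ℝ) // i.1 ∈ A ∧ i.2 ∈ A ∧ dist i.1.1 i.2.1 ≤ r₁ ∧
    |i.2.2 - i.1.2| < 1 / 2}
  have H := N.g3 (g := fun _ => p'.1) hg ht (I := I) (x₀ := p₀.1) (x := fun i => i.1.1.1)
    (y := fun i => i.1.2.1) (c := fun i => c i.1.1) (c' := fun i => c i.1.2)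
    (fun i => (hc _ i.2.1).1) (fun i => (hc _ i.2.2.1).1) fun i _ =>
      exists_gamma N hr hh (hA i.2.1) (hA i.2.2.1) (hc _ i.2.1).1 (hc _ i.2.1).2
        (hc _ i.2.2.1).1 (hc _ i.2.2.1).2 (hj _ i.2.2.1) i.2.2.2.1 i.2.2.2.2
  -- with heights
  have H' : UH (fun i : I => {z : (ℝ →ᵇ M) × ℝ | z ∈ XZ h p' t ∧ dist i.1.1.1 (z.1 0) ≤ r₁ ∧
      dist i.1.2.1 (z.1 0) ≤ r₁ ∧ |z.2 - i.1.1.2| < 1 / 2})
      (fun _ => PZ h p₀ p' (t + (R + ℓ + (R + ℓ)))) (fun i => phZ p'.1 R ℓ c i.1.1 t)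
      fun i => phZ p'.1 R ℓ c i.1.2 t := by
    obtain ⟨D, h1, h2, h3, h4, h5⟩ := H
    have hsrc : ∀ (i : I) (z : (ℝ →ᵇ M) × ℝ), (z ∈ XZ h p' t ∧ dist i.1.1.1 (z.1 0) ≤ r₁ ∧
        dist i.1.2.1 (z.1 0) ≤ r₁ ∧ |z.2 - i.1.1.2| < 1 / 2) →
        z.1 ∈ XL (fun _ => p'.1) (NB i.1.1.1 r0 ∩ NB i.1.2.1 r0) t := fun i z hz =>
      ⟨hz.1.1, hz.2.1.trans hr, hz.2.2.1.trans hr⟩
    refine ⟨fun i s z => D i s z.1, fun i s hs z hz => ?_, fun i z hz => h2 i (hsrc i z hz),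
      fun i z hz => h3 i (hsrc i z hz), fun ε hε => ?_, fun i ε hε => ?_⟩
    · have hP : ∀ σ ∈ Icc (0:ℝ) 1, D i σ z.1 ∈ P p₀.1 p'.1 (t + (R + ℓ + (R + ℓ))) :=
        fun σ hσ => by
        have := h1 i σ hσ (hsrc i z hz)
        rwa [XL_singleton] at this
      refine ⟨hP s hs, Lf.sheet (F := fun σ => D i σ z.1) hP (fun ε hε => ?_) ?_ hs⟩
      · obtain ⟨δ, hδ, h6⟩ := h5 i ε hε
        exact ⟨δ, hδ, fun σ hσ σ' hσ' hd => h6 σ hσ σ' hσ' hd _ (hsrc i z hz)⟩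
      · have e := h2 i (hsrc i z hz)
        have h7 := phZ_mem (ℓ := ℓ) N hr hh (hA i.2.1) hp' (hc _ i.2.1).1 (hc _ i.2.1).2 ht hz.1
          hz.2.1 hz.2.2.2
        show Lf h _ _ _ (D i 0 z.1 : ℝ →ᵇ M)
        rw [e]
        exact h7.2
    · obtain ⟨δ, hδ, h6⟩ := h4 ε hε
      refine ⟨δ, hδ, fun i s hs z hz z' hz' hd => h6 i s hs _ (hsrc i z hz) _ (hsrc i z' hz') ?_⟩
      exact lt_of_le_of_lt (le_max_left _ _) hd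
    · obtain ⟨δ, hδ, h6⟩ := h5 i ε hε
      exact ⟨δ, hδ, fun σ hσ σ' hσ' hd z hz => h6 σ hσ σ' hσ' hd _ (hsrc i z hz)⟩
  intro r hr'
  obtain ⟨δ, hδ, hC⟩ := H892.UH.ctgC H' r hr'
  have hm : 0 < min δ (min r₁ (1 / 2)) := lt_min hδ (lt_min hr₁ (by norm_num))
  refine ⟨min δ (min r₁ (1 / 2)), hm, fun x hx y hy hxy => ?_⟩
  have e1 : min δ (min r₁ (1 / 2)) ≤ δ := min_le_left _ _
  have e2 : min δ (min r₁ (1 / 2)) ≤ r₁ := (min_le_right _ _).trans (min_le_left _ _)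
  have e3 : min δ (min r₁ (1 / 2)) ≤ 1 / 2 := (min_le_right _ _).trans (min_le_right _ _)
  have d1 : dist x.1 y.1 ≤ dist x y := le_max_left _ _
  have d2 : dist x.2 y.2 ≤ dist x y := le_max_right _ _
  have hi : |y.2 - x.2| < 1 / 2 := by
    rw [← Real.dist_eq, dist_comm]
    exact (d2.trans_lt hxy).trans_le e3
  refine CtgC.mono (hC ⟨(x, y), hx, hy, (d1.trans hxy.le).trans e2, hi⟩) le_rfl (fun z hz => ?_)
    e1 le_rfl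
  obtain ⟨⟨hz1, hz2⟩, -, hz3⟩ := hz
  have g1 : dist x.1 (z.1 0) ≤ dist x (stz z) := le_max_left _ _
  have g2 : dist x.2 z.2 ≤ dist x (stz z) := le_max_right _ _
  have g3 : dist y.1 (z.1 0) ≤ dist y (stz z) := le_max_left _ _
  refine ⟨hz1, (g1.trans hz2.le).trans e2, (g3.trans hz3.le).trans e2, ?_⟩
  rw [← Real.dist_eq, dist_comm]
  exact (g2.trans_lt hz2).trans_le e3

end Vale.Agent.P216.H923Z
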