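import Vale.Agent.P216.H923Z.FibC

/-!
# P216-B7, Z10: numbers and tracks over a slab, from G2 and G3
-/

set_option linter.all false

open Set BoundedContinuousFunction

namespace Vale.Agent.P216.H923Z

open Vale.Agent.P216.PS Vale.Agent.P216.MV337 Vale.Agent.P216.H923E
open Vale.Agent.P216.B7 Vale.Agent.P216.H971Z

variable {M : Type} [MetricSpace M] [CompactSpace M] {ρ : ℝ} {h : C(M, Circle)} {p₀ : M × ℝ}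

theorem Slb_mono {R R' : ℝ} (hR : R ≤ R') : Slb h R ⊆ Slb h R' := fun _ hp =>
  ⟨hp.1, hp.2.trans hR⟩

/-- **Numbers and tracks over a slab.** -/
theorem exists_nb (hρ : 0 < ρ) (hU : LS.UniqSeg M ρ) (h2 : G2Goal M h) (h3 : G3Goal M h)
    (hp₀ : p₀ ∈ Xt h) (R₀ : ℝ) : ∃ (R ℓ₀ ℓ r0 : ℝ) (c : M × ℝ → ℝ → M), Nb M ρ R ℓ₀ ℓ r0 ∧
      (∀ p ∈ Slb h (max R₀ |p₀.2|), Pt ℓ₀ p.1 p₀.1 (c p) ∧ Lf h ℓ₀ p.2 p₀.2 (c p)) ∧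
      ∀ q ∈ Slb h (max R₀ |p₀.2|), ∀ v ∈ PZ h q p₀ (R + ℓ₀), ∀ v' ∈ PZ h q p₀ (R + ℓ₀),
        JoinedIn (PZ h q p₀ ℓ) v v' := by
  obtain ⟨ℓ₀, hℓ₀, hne⟩ := h2 (max R₀ |p₀.2|)
  obtain ⟨ℓ, hℓ, hjoin⟩ := h3 (max R₀ |p₀.2|) (ρ / 2 + ℓ₀)
  have hp₀' : p₀ ∈ Slb h (max R₀ |p₀.2|) := ⟨hp₀, le_max_right _ _⟩
  have hc : ∀ p : M × ℝ, ∃ f : ℝ → M, p ∈ Slb h (max R₀ |p₀.2|) →
      Pt ℓ₀ p.1 p₀.1 f ∧ Lf h ℓ₀ p.2 p₀.2 f := by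
    intro p
    by_cases hp : p ∈ Slb h (max R₀ |p₀.2|)
    · obtain ⟨w, hw⟩ := hne p hp p₀ hp₀'
      exact ⟨w, fun _ => ⟨Pt.of_P hw.1, hw.2⟩⟩
    · exact ⟨fun _ => p.1, fun h => absurd h hp⟩
  choose c hc using hc
  exact ⟨ρ / 2, ℓ₀, ℓ, ρ / 4, c, ⟨hU, by linarith, by linarith, by linarith, by linarith, hℓ₀, hℓ⟩,
    hc, fun q hq => hjoin q hq p₀ hp₀'⟩

end Vale.Agent.P216.H923Z
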